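import Mathlib

/-!
Orthonormal frames adapted to a symmetric matrix or to an orthogonal projection, and the inequality
`log det X ≤ tr X - k` for positive definite `X`.
-/

namespace Vale.Agent.P231.Lin

open Matrix Finset

variable {ι κ μ : Type*} [Fintype ι] [DecidableEq ι] [Fintype κ] [DecidableEq κ]

/-- An orthonormal frame indexed by another type. -/
structure IsFrame (V : Matrix ι κ ℝ) : Prop where
  left : Vᵀ * V = 1
  right : V * Vᵀ = 1

namespace IsFrame

variable {V : Matrix ι κ ℝ} (hV : IsFrame V)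
include hV

lemma mul_cancel [Fintype μ] {ν : Type*} [Fintype ν] {W : Matrix ι μ ℝ} {U : Matrix ι ν ℝ}
    (X : Matrix ι ι ℝ) (Y : Matrix ι ι ℝ) :
    (Wᵀ * X * V) * (Vᵀ * Y * U) = Wᵀ * (X * Y) * U := by
  simp only [Matrix.mul_assoc, ← Matrix.mul_assoc V Vᵀ, hV.right, Matrix.one_mul]

lemma conj_one : Vᵀ * (1 : Matrix ι ι ℝ) * V = 1 := by rw [Matrix.mul_one, hV.left]

lemma det_conj (X : Matrix ι ι ℝ) : (Vᵀ * X * V).det = X.det :=
  Matrix.det_conj_of_mul_eq_one hV.left hV.right

lemma trace_conj (X : Matrix ι ι ℝ) : (Vᵀ * X * V).trace = X.trace := by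
  rw [Matrix.trace_mul_comm, ← Matrix.mul_assoc, hV.right, Matrix.one_mul]

lemma back (X : Matrix ι ι ℝ) : V * (Vᵀ * X * V) * Vᵀ = X := by
  simp only [Matrix.mul_assoc, hV.right, Matrix.mul_one]
  rw [← Matrix.mul_assoc, hV.right, Matrix.one_mul]

lemma abs_det_conj {W : Matrix ι κ ℝ} (hW : IsFrame W) (X : Matrix ι ι ℝ) :
    |(Wᵀ * X * V).det| = |X.det| := by
  refine (sq_eq_sq_iff_abs_eq_abs _ _).1 ?_
  have h : (Wᵀ * X * V)ᵀ * (Wᵀ * X * V) = Vᵀ * (Xᵀ * X) * V := by
    rw [transpose_mul, transpose_mul, transpose_transpose, ← Matrix.mul_assoc Vᵀ Xᵀ W,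
      hW.mul_cancel]
  calc _ = ((Wᵀ * X * V)ᵀ * (Wᵀ * X * V)).det := by rw [det_mul, det_transpose, sq]
    _ = X.det ^ 2 := by rw [h, hV.det_conj, det_mul, det_transpose, sq]

lemma isUnit_det_iff {W : Matrix ι κ ℝ} (hW : IsFrame W) (X : Matrix ι ι ℝ) :
    (Wᵀ * X * V).det ≠ 0 ↔ X.det ≠ 0 := by
  rw [← abs_pos, hV.abs_det_conj hW, abs_pos]

end IsFrame

omit [DecidableEq ι] [Fintype κ] [DecidableEq κ] in
lemma transpose_sandwich [Fintype μ] (W : Matrix ι μ ℝ) (V : Matrix ι κ ℝ) (X : Matrix ι ι ℝ) :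
    (Wᵀ * X * V)ᵀ = Vᵀ * Xᵀ * W := by
  rw [transpose_mul, transpose_mul, transpose_transpose, Matrix.mul_assoc]

omit [DecidableEq ι] [Fintype κ] [DecidableEq κ] in
lemma sandwich_sub (W : Matrix ι μ ℝ) (V : Matrix ι κ ℝ) (X Y : Matrix ι ι ℝ) :
    Wᵀ * (X - Y) * V = Wᵀ * X * V - Wᵀ * Y * V := by
  rw [Matrix.mul_sub, Matrix.sub_mul]

/-- Eigenframe of a symmetric matrix with the `l` zero eigenvalues first. -/
theorem exists_frame {n l k : ℕ} (hn : n = l + k) {H : Matrix (Fin n) (Fin n) ℝ}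
    (hH : H.IsHermitian) (hl : Fintype.card {i // hH.eigenvalues i = 0} = l) :
    ∃ (V : Matrix (Fin n) (Fin l ⊕ Fin k) ℝ) (d : Fin k → ℝ), IsFrame V ∧
      Vᵀ * H * V = fromBlocks 0 0 0 (diagonal d) ∧ ∀ i, d i ≠ 0 := by
  classical
  have hk : Fintype.card {i // ¬hH.eigenvalues i = 0} = k := by
    rw [Fintype.card_subtype_compl, Fintype.card_fin, hl]; omega
  let e1 : Fin l ≃ {i // hH.eigenvalues i = 0} := (Fintype.equivFinOfCardEq hl).symm
  let e2 : Fin k ≃ {i // ¬hH.eigenvalues i = 0} := (Fintype.equivFinOfCardEq hk).symm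
  let e : Fin l ⊕ Fin k ≃ Fin n := (Equiv.sumCongr e1 e2).trans (Equiv.sumCompl _)
  set U : Matrix (Fin n) (Fin n) ℝ := (hH.eigenvectorUnitary : Matrix (Fin n) (Fin n) ℝ) with hU
  have h1 : Uᵀ * U = 1 := by
    have := Unitary.star_mul_self_of_mem hH.eigenvectorUnitary.2
    simpa [hU, star_eq_conjTranspose] using this
  have h2 : U * Uᵀ = 1 := mul_eq_one_comm.1 h1
  have h3 : Uᵀ * H * U = diagonal hH.eigenvalues := by
    have := hH.conjStarAlgAut_star_eigenvectorUnitary
    simpa [hU, Unitary.conjStarAlgAut_apply, star_eq_conjTranspose] using! this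
  refine ⟨U.submatrix id e, fun i => hH.eigenvalues (e2 i), ⟨?_, ?_⟩, ?_, fun i => (e2 i).2⟩
  · rw [transpose_submatrix]
    exact (submatrix_mul Uᵀ U e id e Function.bijective_id).symm.trans
      (by rw [h1, submatrix_one_equiv])
  · rw [transpose_submatrix]
    exact (submatrix_mul U Uᵀ id e id e.bijective).symm.trans (by rw [h2, submatrix_id_id])
  · have : (U.submatrix id e)ᵀ * H * U.submatrix id e = (Uᵀ * H * U).submatrix e e := by
      rw [submatrix_mul _ U e id e Function.bijective_id, submatrix_mul Uᵀ H e id id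
        Function.bijective_id, transpose_submatrix, submatrix_id_id]
    rw [this, h3, submatrix_diagonal_equiv]
    ext i j
    rcases i with i | i <;> rcases j with j | j
    · simp [e, diagonal_apply, (e1 i).2]
    · simp [e]
    · simp [e]
    · simp [e, diagonal_apply]

lemma card_zero_eigenvalues {n l k : ℕ} (hn : n = l + k) {H : Matrix (Fin n) (Fin n) ℝ}
    (hH : H.IsHermitian) (hr : H.rank = k) :
    Fintype.card {i // hH.eigenvalues i = 0} = l := by
  classical
  have h := hH.rank_eq_card_non_zero_eigs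
  rw [Fintype.card_subtype_compl, Fintype.card_fin, hr] at h
  have := Fintype.card_subtype_le fun i => hH.eigenvalues i = 0
  rw [Fintype.card_fin] at this
  omega

/-- Eigenframe of a positive semidefinite matrix of rank `k`. -/
theorem exists_frame_psd {n l k : ℕ} (hn : n = l + k) {H : Matrix (Fin n) (Fin n) ℝ}
    (hH : H.PosSemidef) (hr : H.rank = k) :
    ∃ (V : Matrix (Fin n) (Fin l ⊕ Fin k) ℝ) (d : Fin k → ℝ), IsFrame V ∧
      Vᵀ * H * V = fromBlocks 0 0 0 (diagonal d) ∧ ∀ i, 0 < d i := by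
  obtain ⟨V, d, hV, hHV, hd⟩ := exists_frame hn hH.isHermitian (card_zero_eigenvalues hn _ hr)
  refine ⟨V, d, hV, hHV, fun i => lt_of_le_of_ne ?_ (hd i).symm⟩
  have h := (hH.conjTranspose_mul_mul_same V).diag_nonneg (i := Sum.inr i)
  rw [conjTranspose_eq_transpose_of_trivial, hHV] at h
  simpa using h

/-- Frame adapted to an orthogonal projection of trace `l`. -/
theorem exists_frame_proj {n l k : ℕ} (hn : n = l + k) {P : Matrix (Fin n) (Fin n) ℝ}
    (hPP : P * P = P) (hPt : Pᵀ = P) (htr : P.trace = (l : ℝ)) :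
    ∃ V : Matrix (Fin n) (Fin l ⊕ Fin k) ℝ, IsFrame V ∧ Vᵀ * P * V = fromBlocks 1 0 0 0 := by
  classical
  have hH : (1 - P).IsHermitian := by
    rw [IsHermitian, conjTranspose_eq_transpose_of_trivial, transpose_sub, transpose_one, hPt]
  have hidem : (1 - P) * (1 - P) = 1 - P := by
    rw [Matrix.sub_mul, Matrix.one_mul, Matrix.mul_sub, Matrix.mul_one, hPP, sub_self, sub_zero]
  have h01 : ∀ i, hH.eigenvalues i = 0 ∨ hH.eigenvalues i = 1 := by
    intro i
    have h := hH.mulVec_eigenvectorBasis i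
    have h' : (1 - P) *ᵥ ((1 - P) *ᵥ ⇑(hH.eigenvectorBasis i)) =
        (1 - P) *ᵥ ⇑(hH.eigenvectorBasis i) := by rw [mulVec_mulVec, hidem]
    rw [h, mulVec_smul, h, smul_smul] at h'
    have hv : (⇑(hH.eigenvectorBasis i) : Fin n → ℝ) ≠ 0 := fun h0 =>
      hH.eigenvectorBasis.orthonormal.ne_zero i (by ext j; exact congrFun h0 j)
    have : (hH.eigenvalues i - hH.eigenvalues i * hH.eigenvalues i) = 0 := by
      have h'' := sub_eq_zero.2 h'.symm
      rw [← sub_smul] at h''
      exact (smul_eq_zero.1 h'').resolve_right hv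
    rcases eq_or_ne (hH.eigenvalues i) 0 with h0 | h0
    · exact Or.inl h0
    · exact Or.inr (mul_left_cancel₀ h0 (by linarith))
  have hcard : Fintype.card {i // hH.eigenvalues i = 0} = l := by
    have hs : (1 - P).trace = ∑ i, hH.eigenvalues i := by
      simpa using hH.trace_eq_sum_eigenvalues
    rw [trace_sub, trace_one, htr, Fintype.card_fin] at hs
    have he : ∀ i, hH.eigenvalues i = if hH.eigenvalues i = 0 then 0 else 1 := fun i => by
      rcases h01 i with h | h <;> simp [h]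
    rw [Finset.sum_congr rfl fun i _ => he i] at hs
    simp only [Finset.sum_ite, Finset.sum_const_zero, zero_add, Finset.sum_const, nsmul_eq_mul,
      mul_one] at hs
    have hc := Finset.card_filter_add_card_filter_not (s := (univ : Finset (Fin n)))
      (p := fun i => hH.eigenvalues i = 0)
    rw [card_univ, Fintype.card_fin] at hc
    rw [Fintype.card_subtype]
    have hs' : (n : ℝ) = ((l + (univ.filter fun i => ¬hH.eigenvalues i = 0).card : ℕ) : ℝ) := by
      push_cast; linarith
    have := Nat.cast_injective hs'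
    omega
  obtain ⟨V, d, hV, hHV, hd⟩ := exists_frame hn hH hcard
  refine ⟨V, hV, ?_⟩
  have h := hV.mul_cancel (W := V) (U := V) (1 - P) (1 - P)
  rw [hidem, hHV, fromBlocks_multiply] at h
  simp only [Matrix.mul_zero, Matrix.zero_mul, add_zero, zero_add, diagonal_mul_diagonal,
    fromBlocks_inj] at h
  have hd1 : ∀ i, d i = 1 := fun i => mul_left_cancel₀ (hd i)
    (by simpa using congrFun (congrFun h.2.2.2 i) i)
  rw [sandwich_sub, hV.conj_one, funext hd1, diagonal_one, sub_eq_iff_eq_add] at hHV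
  rw [← fromBlocks_one] at hHV
  ext i j
  have h5 := congrFun (congrFun hHV i) j
  rcases i with i | i <;> rcases j with j | j <;>
    simp only [Matrix.add_apply, fromBlocks_apply₁₁, fromBlocks_apply₁₂, fromBlocks_apply₂₁,
      fromBlocks_apply₂₂, Matrix.zero_apply] at h5 ⊢ <;> linarith

/-- Scaled `log det ≤ trace` inequality, with its equality case. -/
theorem log_det_le {X : Matrix κ κ ℝ} (hX : X.PosDef) {γ : ℝ} (hγ : 0 < γ) :
    γ * (Real.log X.det + Fintype.card κ - Fintype.card κ * Real.log γ) ≤ X.trace ∧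
      (γ * (Real.log X.det + Fintype.card κ - Fintype.card κ * Real.log γ) = X.trace →
        X = γ • (1 : Matrix κ κ ℝ)) := by
  set ev := hX.isHermitian.eigenvalues with hev
  have hpos : ∀ i, 0 < ev i := hX.eigenvalues_pos
  have hdet : Real.log X.det = ∑ i, Real.log (ev i) := by
    rw [hX.isHermitian.det_eq_prod_eigenvalues, ← Real.log_prod fun i _ => (hpos i).ne']
    simp [hev]
  have htr : X.trace = ∑ i, ev i := by
    rw [hX.isHermitian.trace_eq_sum_eigenvalues]; simp [hev]
  have hle : ∀ i, γ * (Real.log (ev i) + 1 - Real.log γ) ≤ ev i := fun i => by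
    have := Real.log_le_sub_one_of_pos (div_pos (hpos i) hγ)
    rw [Real.log_div (hpos i).ne' hγ.ne', le_sub_iff_add_le, le_div_iff₀ hγ] at this
    linarith
  have hsum : γ * (Real.log X.det + Fintype.card κ - Fintype.card κ * Real.log γ) =
      ∑ i, γ * (Real.log (ev i) + 1 - Real.log γ) := by
    rw [hdet, ← Finset.mul_sum, Finset.sum_sub_distrib, Finset.sum_add_distrib]
    simp
  refine ⟨by rw [hsum, htr]; exact Finset.sum_le_sum fun i _ => hle i, fun he => ?_⟩
  rw [hsum, htr, Finset.sum_eq_sum_iff_of_le fun i _ => hle i] at he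
  have hall : ∀ i, ev i = γ := fun i => by
    by_contra hne
    have hne' : ev i / γ ≠ 1 := fun h => hne ((div_eq_one_iff_eq hγ.ne').1 h)
    have := Real.log_lt_sub_one_of_pos (div_pos (hpos i) hγ) hne'
    rw [Real.log_div (hpos i).ne' hγ.ne', lt_sub_iff_add_lt, lt_div_iff₀ hγ] at this
    linarith [he i (Finset.mem_univ i)]
  have hspec := hX.isHermitian.spectral_theorem
  have hd : diagonal (RCLike.ofReal ∘ hX.isHermitian.eigenvalues) = γ • (1 : Matrix κ κ ℝ) := by
    ext i j
    rcases eq_or_ne i j with rfl | hij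
    · simp [← hev, hall i]
    · simp [hij]
  rw [hd, map_smul, map_one] at hspec
  exact hspec

/-- `log |det|` from the Gram matrix. -/
lemma log_det_gram (Z : Matrix κ κ ℝ) : Real.log (Zᵀ * Z).det / 2 = Real.log |Z.det| := by
  rw [det_mul, det_transpose, ← sq, Real.log_pow, Real.log_abs]
  push_cast; ring

end Vale.Agent.P231.Lin
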