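import Vale.Agent.P231.MatrixSpec
import Vale.Agent.P231.Matrix.Basic

/-!
Block form of a matrix killed by projections on both sides; the cofactor is the determinant of the
remaining block. Proof of `CofTransposeGoal`.
-/

namespace Vale.Agent.P231.Lin

open Matrix

variable {n l k : ℕ}

lemma isUnit_det_of_rank {z : Matrix (Fin k) (Fin k) ℝ} (h : k ≤ z.rank) : z.det ≠ 0 := by
  have hz : Function.Surjective z.mulVec := by
    have h1 : LinearMap.range z.mulVecLin = ⊤ := Submodule.eq_top_of_finrank_eq (by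
      have : z.rank ≤ k := z.rank_le_height
      rw [Module.finrank_fin_fun]
      exact le_antisymm this h)
    exact LinearMap.range_eq_top.1 h1
  exact ((z.isUnit_iff_isUnit_det).1 (mulVec_surjective_iff_isUnit.1 hz)).ne_zero

/-- A matrix killed by both projections is a single block. -/
theorem block_of_killed {Va Vb : Matrix (Fin n) (Fin l ⊕ Fin k) ℝ} (ha : IsFrame Va)
    (hb : IsFrame Vb) {Z Pa Pb : Matrix (Fin n) (Fin n) ℝ}
    (hPa : Vaᵀ * Pa * Va = fromBlocks 1 0 0 0) (hPb : Vbᵀ * Pb * Vb = fromBlocks 1 0 0 0)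
    (hZb : Z * Pb = 0) (hZa : Pa * Z = 0) :
    ∃ z : Matrix (Fin k) (Fin k) ℝ, Vaᵀ * Z * Vb = fromBlocks 0 0 0 z := by
  have h1 := hb.mul_cancel (W := Va) (U := Vb) Z Pb
  have h2 := ha.mul_cancel (W := Va) (U := Vb) Pa Z
  rw [hZb, hPb, Matrix.mul_zero, Matrix.zero_mul, ← fromBlocks_toBlocks (Vaᵀ * Z * Vb),
    fromBlocks_multiply, ← fromBlocks_zero] at h1
  rw [hZa, hPa, Matrix.mul_zero, Matrix.zero_mul, ← fromBlocks_toBlocks (Vaᵀ * Z * Vb),
    fromBlocks_multiply, ← fromBlocks_zero] at h2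
  simp only [Matrix.mul_zero, Matrix.zero_mul, Matrix.mul_one, Matrix.one_mul, add_zero,
    fromBlocks_inj] at h1 h2
  exact ⟨(Vaᵀ * Z * Vb).toBlocks₂₂, by
    conv_lhs => rw [← fromBlocks_toBlocks (Vaᵀ * Z * Vb), h1.1, h1.2.2.1, h2.2.1]⟩

lemma block_det_ne {Va Vb : Matrix (Fin n) (Fin l ⊕ Fin k) ℝ} (ha : IsFrame Va) (hb : IsFrame Vb)
    {Z : Matrix (Fin n) (Fin n) ℝ} {z : Matrix (Fin k) (Fin k) ℝ}
    (hz : Vaᵀ * Z * Vb = fromBlocks 0 0 0 z) (hr : Z.rank = k) : z.det ≠ 0 := by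
  refine isUnit_det_of_rank ?_
  have hZ : Z = Va * (fromBlocks 0 0 0 z : Matrix (Fin l ⊕ Fin k) (Fin l ⊕ Fin k) ℝ) * Vbᵀ := by
    rw [← hz]; simp only [Matrix.mul_assoc, hb.right, Matrix.mul_one]
    rw [← Matrix.mul_assoc, ha.right, Matrix.one_mul]
  have hR : (fromBlocks 0 0 0 z : Matrix (Fin l ⊕ Fin k) (Fin l ⊕ Fin k) ℝ) =
      fromRows (0 : Matrix (Fin l) (Fin k) ℝ) 1 * (z * fromCols (0 : Matrix (Fin k) (Fin l) ℝ) 1) := by
    ext (i | i) (j | j) <;> simp [fromRows_mul, Matrix.mul_fromCols]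
  calc k = Z.rank := hr.symm
    _ ≤ (fromBlocks 0 0 0 z : Matrix (Fin l ⊕ Fin k) (Fin l ⊕ Fin k) ℝ).rank := by
        rw [hZ]; exact (rank_mul_le_left _ _).trans (rank_mul_le_right _ _)
    _ ≤ z.rank := by rw [hR]; exact (rank_mul_le_right _ _).trans (rank_mul_le_left _ _)

/-- The cofactor is the determinant of the block. -/
theorem logCof_eq {Va Vb : Matrix (Fin n) (Fin l ⊕ Fin k) ℝ} (ha : IsFrame Va) (hb : IsFrame Vb)
    {Z Pb : Mat n} {z : Matrix (Fin k) (Fin k) ℝ} (hPb : Vbᵀ * Pb * Vb = fromBlocks 1 0 0 0)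
    (hz : Vaᵀ * Z * Vb = fromBlocks 0 0 0 z) : logCof Pb Z = Real.log |z.det| := by
  have h : Vbᵀ * (Zᵀ * Z + Pb) * Vb = fromBlocks 1 0 0 (zᵀ * z) := by
    rw [Matrix.mul_add, Matrix.add_mul, hPb,
      ← ha.mul_cancel (W := Vb) (U := Vb) Zᵀ Z, ← transpose_sandwich, hz, fromBlocks_transpose,
      fromBlocks_multiply, fromBlocks_add]
    simp
  rw [logCof, ← hb.det_conj, h, det_fromBlocks_zero₁₂, det_one, one_mul, log_det_gram]

theorem cofTransposeGoal : CofTransposeGoal := by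
  intro n l k Z Pa Pb hn ha1 ha2 ha3 hb1 hb2 hb3 hZb hZa hr
  obtain ⟨Va, hVa, hPa⟩ := exists_frame_proj hn ha1 ha2 ha3
  obtain ⟨Vb, hVb, hPb⟩ := exists_frame_proj hn hb1 hb2 hb3
  obtain ⟨z, hz⟩ := block_of_killed hVa hVb hPa hPb hZb hZa
  have hzT : Vbᵀ * Zᵀ * Va = fromBlocks 0 0 0 zᵀ := by
    rw [← transpose_sandwich, hz, fromBlocks_transpose]; simp
  rw [logCof_eq hVa hVb hPb hz, logCof_eq hVb hVa hPa hzT, det_transpose]

end Vale.Agent.P231.Lin
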