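import Vale.Agent.P231.MatrixSpec
import Vale.Agent.P231.Matrix.Basic

/-!
Split lower bound for the trace of an inverse Gram matrix: Schur complement and
`log det ≤ trace` on each block. Proof of `InvGramGoal`.
-/

namespace Vale.Agent.P231.Lin

open Matrix

variable {ι κ : Type*} [Fintype ι] [DecidableEq ι] [Fintype κ] [DecidableEq κ]

/-- The blocks of the inverse of a positive definite block matrix. -/
theorem inverse_blocks {a : Matrix ι ι ℝ} {b : Matrix ι κ ℝ} {c : Matrix κ κ ℝ}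
    (hG : (fromBlocks a b bᵀ c).PosDef) :
    ∃ (j : Matrix κ κ ℝ) (Y : Matrix ι κ ℝ), a.PosDef ∧ j.PosDef ∧
      (fromBlocks a b bᵀ c)⁻¹.trace = a⁻¹.trace + (Y * j * Yᵀ).trace + j.trace ∧
      Y = a⁻¹ * b ∧ Real.log (fromBlocks a b bᵀ c).det = Real.log a.det - Real.log j.det ∧
      (c - bᵀ * Y) * j = 1 := by
  have ha : a.PosDef := by simpa using! hG.submatrix (e := Sum.inl) Sum.inl_injective
  set J := (fromBlocks a b bᵀ c)⁻¹ with hJ
  have hJp : J.PosDef := hG.inv
  have hj : J.toBlocks₂₂.PosDef := by simpa using! hJp.submatrix (e := Sum.inr) Sum.inr_injective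
  have hmul : fromBlocks a b bᵀ c * J = 1 :=
    mul_nonsing_inv _ ((isUnit_iff_isUnit_det _).1 hG.isUnit)
  rw [← fromBlocks_toBlocks J, fromBlocks_multiply, ← fromBlocks_one, fromBlocks_inj] at hmul
  obtain ⟨e11, e12, -, e22⟩ := hmul
  have hau : IsUnit a.det := (isUnit_iff_isUnit_det _).1 ha.isUnit
  set Y := a⁻¹ * b with hY
  have h12 : J.toBlocks₁₂ = -(Y * J.toBlocks₂₂) := by
    have := congrArg (a⁻¹ * ·) e12
    simp only [Matrix.mul_add, ← Matrix.mul_assoc, nonsing_inv_mul _ hau, Matrix.one_mul,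
      Matrix.mul_zero] at this
    exact eq_neg_of_add_eq_zero_left this
  have hs : (c - bᵀ * Y) * J.toBlocks₂₂ = 1 := by
    rw [h12, Matrix.mul_neg, ← Matrix.mul_assoc] at e22
    rw [Matrix.sub_mul, sub_eq_neg_add, e22]
  have hJs : Jᵀ = J := by
    rw [← conjTranspose_eq_transpose_of_trivial]; exact hJp.isHermitian
  have h21 : J.toBlocks₂₁ = J.toBlocks₁₂ᵀ := by
    ext i j
    exact (congrFun (congrFun hJs (Sum.inr i)) (Sum.inl j)).symm
  have hjs : J.toBlocks₂₂ᵀ = J.toBlocks₂₂ := by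
    rw [← conjTranspose_eq_transpose_of_trivial]; exact hj.isHermitian
  have h11 : J.toBlocks₁₁ = a⁻¹ + Y * J.toBlocks₂₂ * Yᵀ := by
    have := congrArg (a⁻¹ * ·) e11
    simp only [Matrix.mul_add, ← Matrix.mul_assoc, nonsing_inv_mul _ hau, Matrix.one_mul,
      Matrix.mul_one] at this
    rw [h21, h12, transpose_neg, transpose_mul, hjs, Matrix.mul_neg, ← Matrix.mul_assoc] at this
    exact eq_add_of_add_neg_eq this
  refine ⟨_, Y, ha, hj, ?_, rfl, ?_, hs⟩
  · conv_lhs => rw [← fromBlocks_toBlocks J]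
    simp [Matrix.trace, Fintype.sum_sum_type, h11, Finset.sum_add_distrib]
  · have : Invertible a := invertibleOfIsUnitDet a hau
    rw [det_fromBlocks₁₁, invOf_eq_nonsing_inv, Matrix.mul_assoc]
    have hd : (c - bᵀ * Y).det * J.toBlocks₂₂.det = 1 := by rw [← det_mul, hs, det_one]
    rw [Real.log_mul ha.det_pos.ne' (left_ne_zero_of_mul_eq_one hd),
      eq_inv_of_mul_eq_one_left hd, Real.log_inv]
    ring

omit [DecidableEq ι] [DecidableEq κ] in
lemma eq_zero_of_trace_sandwich {j : Matrix κ κ ℝ} (hj : j.PosDef) {Y : Matrix ι κ ℝ}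
    (h : (Y * j * Yᵀ).trace = 0) : Y = 0 := by
  have hp := hj.posSemidef.mul_mul_conjTranspose_same Y
  rw [conjTranspose_eq_transpose_of_trivial] at hp
  have h0 := hp.trace_eq_zero_iff.1 h
  ext i p
  by_contra hne
  have hrow : (Y i : κ → ℝ) ≠ 0 := fun e => hne (congrFun e p)
  have := hj.dotProduct_mulVec_pos hrow
  refine this.ne' ?_
  calc star (Y i) ⬝ᵥ (j *ᵥ Y i) = (Y * j * Yᵀ) i i := by
        simp [Matrix.mul_apply, mulVec, dotProduct, Finset.mul_sum, Finset.sum_mul]
        rw [Finset.sum_comm]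
        exact Finset.sum_congr rfl fun _ _ => Finset.sum_congr rfl fun _ _ => by ring
    _ = 0 := by rw [h0]; rfl

theorem invGramGoal : InvGramGoal := by
  intro n l k M P α β hn hM hPP hPt htr hα hβ
  obtain ⟨V, hV, hP⟩ := exists_frame_proj hn hPP hPt htr
  set G := Vᵀ * (Mᵀ * M) * V with hGdef
  have hGM : (Mᵀ * M).PosDef := by
    rw [← conjTranspose_eq_transpose_of_trivial]
    exact PosDef.conjTranspose_mul_self M (mulVec_injective_iff_isUnit.2
      ((isUnit_iff_isUnit_det _).2 hM.isUnit))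
  have hG : G.PosDef := by
    rw [hGdef, ← conjTranspose_eq_transpose_of_trivial V]
    exact hGM.conjTranspose_mul_mul_same (fun x y h => by
      simpa [mulVec_mulVec, hV.left] using congrArg (Vᵀ *ᵥ ·) h)
  have hGs : Gᵀ = G := by
    rw [← conjTranspose_eq_transpose_of_trivial]; exact hG.isHermitian
  have hb : G.toBlocks₂₁ = G.toBlocks₁₂ᵀ := by
    ext i j
    exact (congrFun (congrFun hGs (Sum.inr i)) (Sum.inl j)).symm
  have hGb : G = fromBlocks G.toBlocks₁₁ G.toBlocks₁₂ G.toBlocks₁₂ᵀ G.toBlocks₂₂ := by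
    rw [← hb, fromBlocks_toBlocks]
  obtain ⟨j, Y, ha, hj, htrace, hY, hdet, hs⟩ := inverse_blocks (hGb ▸ hG)
  rw [← hGb] at htrace hdet
  set a := G.toBlocks₁₁ with hadef
  have hinv : G⁻¹ = Vᵀ * (Mᵀ * M)⁻¹ * V := inv_eq_right_inv (by
    rw [hV.mul_cancel, mul_nonsing_inv _ ((isUnit_iff_isUnit_det _).1 hGM.isUnit), hV.conj_one])
  have hI : invGram M = a⁻¹.trace + (Y * j * Yᵀ).trace + j.trace := by
    rw [invGram, ← hV.trace_conj, ← hinv, htrace]
  have hg : logGram P M = Real.log a.det / 2 := by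
    have : Vᵀ * (P * (Mᵀ * M) * P + (1 - P)) * V = fromBlocks a 0 0 1 := by
      rw [Matrix.mul_add, Matrix.add_mul, sandwich_sub, hV.conj_one, hP,
        ← hV.mul_cancel (W := V) (U := V) (P * (Mᵀ * M)) P,
        ← hV.mul_cancel (W := V) (U := V) P (Mᵀ * M), hP, ← hGdef, hGb, fromBlocks_multiply,
        fromBlocks_multiply, sub_eq_add_neg, fromBlocks_neg, ← fromBlocks_one, fromBlocks_add,
        fromBlocks_add]
      simp
    rw [logGram, ← hV.det_conj, this, det_fromBlocks_zero₁₂, det_one, mul_one]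
  have hd : 2 * logAbsDet M = Real.log a.det - Real.log j.det := by
    rw [← hdet, hGdef, hV.det_conj, logAbsDet, ← log_det_gram]; ring
  have hai : Real.log a⁻¹.det = -Real.log a.det := by
    rw [det_nonsing_inv, Ring.inverse_eq_inv', Real.log_inv]
  obtain ⟨h1, h1e⟩ := log_det_le ha.inv hα
  obtain ⟨h2, h2e⟩ := log_det_le hj hβ
  simp only [Fintype.card_fin] at h1 h2 h1e h2e
  have hyp : 0 ≤ (Y * j * Yᵀ).trace := by
    have := hj.posSemidef.mul_mul_conjTranspose_same Y
    rw [conjTranspose_eq_transpose_of_trivial] at this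
    exact this.trace_nonneg
  have e : α * (l - 2 * logGram P M - l * Real.log α)
      + β * (k + 2 * logGram P M - 2 * logAbsDet M - k * Real.log β) =
      α * (Real.log a⁻¹.det + l - l * Real.log α) + β * (Real.log j.det + k - k * Real.log β) := by
    rw [hd, hg, hai]; ring
  rw [e, hI]
  refine ⟨by linarith, fun heq => ?_⟩
  have e1 := h1e (by linarith)
  have e2 := h2e (by linarith)
  have e3 := eq_zero_of_trace_sandwich hj (by linarith : (Y * j * Yᵀ).trace = 0)
  have hau : IsUnit a.det := (isUnit_iff_isUnit_det _).1 ha.isUnit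
  have hb0 : G.toBlocks₁₂ = 0 := by
    have := congrArg (a * ·) hY
    simpa [e3, ← Matrix.mul_assoc, mul_nonsing_inv _ hau] using this.symm
  have ha' : a = α⁻¹ • (1 : Matrix (Fin l) (Fin l) ℝ) := by
    have := congrArg (a * ·) e1
    simp only [mul_nonsing_inv _ hau, Matrix.mul_smul, Matrix.mul_one] at this
    rw [this, smul_smul, inv_mul_cancel₀ hα.ne', one_smul]
  have hc' : G.toBlocks₂₂ = β⁻¹ • (1 : Matrix (Fin k) (Fin k) ℝ) := by
    rw [hb0, e3, e2, Matrix.transpose_zero, Matrix.zero_mul, sub_zero, Matrix.mul_smul,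
      Matrix.mul_one] at hs
    rw [← hs, smul_smul, inv_mul_cancel₀ hβ.ne', one_smul]
  have hGf : G = Vᵀ * (α⁻¹ • P + β⁻¹ • (1 - P)) * V := by
    rw [Matrix.mul_add, Matrix.add_mul, Matrix.mul_smul, Matrix.smul_mul, Matrix.mul_smul,
      Matrix.smul_mul, sandwich_sub, hV.conj_one, hP, hGb, hb0, ha', hc', ← fromBlocks_one,
      sub_eq_add_neg, fromBlocks_neg, fromBlocks_add, fromBlocks_smul, fromBlocks_smul,
      fromBlocks_add]
    simp
  rw [← hV.back (Mᵀ * M), ← hGdef, hGf, hV.back]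

end Vale.Agent.P231.Lin
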