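import Vale.Agent.P231.Matrix.Cof

/-!
The two one-sided inequalities at half period. Proof of `SideGoal`.
-/

namespace Vale.Agent.P231.Lin

open Matrix

variable {k : ℕ}

/-- One side in the complementary block. -/
lemma side_block {a M X : Matrix (Fin k) (Fin k) ℝ} (ha : a.det ≠ 0) (hM : M.PosSemidef)
    (hdet : M.det = X.det * a.det ∨ M.det = -(X.det * a.det)
      ∨ |M.det| = |X.det| * |a.det|) (hX : X.det ≠ 0) {g : ℝ} (hg : 0 < g) :
    g * (Real.log |X.det| - Real.log |a.det| + k - k * Real.log g) ≤ ((a⁻¹)ᵀ * M * a⁻¹).trace := by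
  have habs : |M.det| = |X.det| * |a.det| := by
    rcases hdet with h | h | h
    · rw [h, abs_mul]
    · rw [h, abs_neg, abs_mul]
    · exact h
  have hMd : M.det ≠ 0 := fun h => by
    rw [h, abs_zero] at habs
    exact mul_ne_zero (abs_ne_zero.2 hX) (abs_ne_zero.2 ha) habs.symm
  have hMp : M.PosDef := hM.posDef_iff_isUnit.2 ((isUnit_iff_isUnit_det M).2 hMd.isUnit)
  have hai : IsUnit a⁻¹ := by
    rw [isUnit_iff_isUnit_det, det_nonsing_inv]
    exact (isUnit_iff_ne_zero.2 (by simpa using inv_ne_zero ha))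
  have hP : ((a⁻¹)ᵀ * M * a⁻¹).PosDef := by
    rw [← conjTranspose_eq_transpose_of_trivial]
    exact hMp.conjTranspose_mul_mul_same (mulVec_injective_iff_isUnit.2 hai)
  obtain ⟨h, -⟩ := log_det_le hP hg
  rw [Fintype.card_fin] at h
  have hl : Real.log ((a⁻¹)ᵀ * M * a⁻¹).det = Real.log |X.det| - Real.log |a.det| := by
    rw [det_mul, det_mul, det_transpose, det_nonsing_inv, Ring.inverse_eq_inv', ← Real.log_abs,
      abs_mul, abs_mul, abs_inv, habs]
    rw [Real.log_mul (by simp [ha, hX]) (by simp [ha]),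
      Real.log_mul (by simp [ha]) (by simp [ha, hX]), Real.log_mul (by simp [hX]) (by simp [ha]),
      Real.log_inv]
    ring
  rwa [hl] at h

theorem sideGoal : SideGoal := by
  intro n l k A0 A1 P0 Px U1 U2 g1 g2 hn hr h01 h02 h03 hA0 hx1 hx2 hx3 hxA0 hiso himg hsym hU1 hU2
    hN1 hN2 hM1 hM2 hg1 hg2
  obtain ⟨V, hV, hP0⟩ := exists_frame_proj hn h01 h02 h03
  obtain ⟨W, hW, hPx⟩ := exists_frame_proj hn hx1 hx2 hx3
  obtain ⟨a, hA⟩ := block_of_killed hW hV hPx hP0 hA0 hxA0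
  have had := block_det_ne hW hV hA hr
  have hcof := logCof_eq hW hV hP0 hA
  set B := Wᵀ * A1 * V with hB
  have hb21 : B.toBlocks₂₁ = 0 := by
    have h := hV.mul_cancel (W := W) (U := V) A1 P0
    have h' := hW.mul_cancel (W := W) (U := V) Px (A1 * P0)
    rw [himg, ← h, hP0, hPx, ← hB, ← fromBlocks_toBlocks B, fromBlocks_multiply,
      fromBlocks_multiply] at h'
    simp only [Matrix.mul_zero, Matrix.zero_mul, Matrix.mul_one, Matrix.one_mul, add_zero,
      fromBlocks_inj] at h'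
    exact h'.2.2.1.symm
  obtain ⟨o, p, r, hBb⟩ : ∃ o p r, B = fromBlocks o p 0 r :=
    ⟨_, _, _, by rw [← hb21, fromBlocks_toBlocks]⟩
  have ho : oᵀ * o = 1 := by
    have h := hW.mul_cancel (W := V) (U := V) (A1 * P0)ᵀ (A1 * P0)
    rw [hiso, ← transpose_sandwich, ← hV.mul_cancel (W := W) (U := V) A1 P0, hP0, ← hB, hBb,
      fromBlocks_multiply, fromBlocks_transpose, fromBlocks_multiply] at h
    simp only [Matrix.mul_zero, Matrix.zero_mul, Matrix.mul_one, transpose_zero, add_zero,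
      fromBlocks_inj] at h
    exact h.1
  have hod : |o.det| = 1 := by
    have := congrArg Matrix.det ho
    rw [det_mul, det_transpose, det_one, ← sq] at this
    exact (sq_eq_one_iff.1 this).elim (fun h => by simp [h]) (fun h => by simp [h])
  have hA0T : Vᵀ * A0ᵀ * W = fromBlocks 0 0 0 aᵀ := by
    rw [← transpose_sandwich, hA, fromBlocks_transpose]; simp
  have hrs : rᵀ * a = aᵀ * r := by
    have h := congrArg (fun X => Vᵀ * X * V) hsym
    rw [← transpose_sandwich, ← hW.mul_cancel (W := V) (U := V) A0ᵀ A1, hA0T, ← hB, hBb,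
      fromBlocks_multiply, fromBlocks_transpose] at h
    simp only [Matrix.mul_zero, Matrix.zero_mul, add_zero, zero_add, transpose_zero,
      fromBlocks_inj] at h
    rw [← h.2.2.2, transpose_mul, transpose_transpose]
  have hAU : ∀ U : Mat n, Vᵀ * (A0ᵀ * U) * W = fromBlocks 0 0
      (aᵀ * (Wᵀ * U * W).toBlocks₂₁) (aᵀ * (Wᵀ * U * W).toBlocks₂₂) := fun U => by
    rw [← hW.mul_cancel, hA0T]
    conv_lhs => rw [← fromBlocks_toBlocks (Wᵀ * U * W), fromBlocks_multiply]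
    simp
  have key : ∀ U : Mat n, (A0ᵀ * U - A1ᵀ).det ≠ 0 →
      logAbsDet (A0ᵀ * U - A1ᵀ) = Real.log |(aᵀ * (Wᵀ * U * W).toBlocks₂₂ - rᵀ).det| ∧
      (aᵀ * (Wᵀ * U * W).toBlocks₂₂ - rᵀ).det ≠ 0 ∧
      Vᵀ * (A0ᵀ * U * A0 - A0ᵀ * A1) * V =
        fromBlocks 0 0 0 ((aᵀ * (Wᵀ * U * W).toBlocks₂₂ - rᵀ) * a) := by
    intro U hN
    have hNb : Vᵀ * (A0ᵀ * U - A1ᵀ) * W = fromBlocks (-oᵀ) 0
        (aᵀ * (Wᵀ * U * W).toBlocks₂₁ - pᵀ) (aᵀ * (Wᵀ * U * W).toBlocks₂₂ - rᵀ) := by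
      rw [sandwich_sub, hAU, ← transpose_sandwich, ← hB, hBb, fromBlocks_transpose,
        sub_eq_add_neg, fromBlocks_neg, fromBlocks_add]
      simp [sub_eq_add_neg]
    have h1 := hW.abs_det_conj hV (A0ᵀ * U - A1ᵀ)
    rw [hNb, det_fromBlocks_zero₁₂, abs_mul, det_neg, abs_mul, abs_pow, abs_neg, abs_one, one_pow,
      one_mul, det_transpose, hod, one_mul] at h1
    refine ⟨by rw [logAbsDet, ← h1], fun h => hN (abs_eq_zero.1 (by
      rw [← h1, h, abs_zero])), ?_⟩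
    rw [sandwich_sub, ← hW.mul_cancel (W := V) (U := V) (A0ᵀ * U) A0, hAU, hA,
      ← hW.mul_cancel (W := V) (U := V) A0ᵀ A1, hA0T, ← hB, hBb, fromBlocks_multiply,
      fromBlocks_multiply, sub_eq_add_neg, fromBlocks_neg, fromBlocks_add]
    simp [Matrix.add_mul, hrs, sub_eq_add_neg]
  obtain ⟨l1, d1, m1⟩ := key U1 hN1
  obtain ⟨l2, d2, m2⟩ := key U2 hN2
  set u1 := (Wᵀ * U1 * W).toBlocks₂₂ with hu1
  set u2 := (Wᵀ * U2 * W).toBlocks₂₂ with hu2
  have p1 : ((aᵀ * u1 - rᵀ) * a).PosSemidef := by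
    have h := hM1.conjTranspose_mul_mul_same V
    rw [conjTranspose_eq_transpose_of_trivial, m1] at h
    simpa using! h.submatrix Sum.inr
  have p2 : (-((aᵀ * u2 - rᵀ) * a)).PosSemidef := by
    have h := hM2.conjTranspose_mul_mul_same V
    rw [conjTranspose_eq_transpose_of_trivial, ← neg_sub, Matrix.mul_neg, Matrix.neg_mul, m2,
      fromBlocks_neg] at h
    simpa using! h.submatrix Sum.inr
  have b1 := side_block had p1 (X := aᵀ * u1 - rᵀ) (Or.inl (det_mul _ _)) d1 hg1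
  have b2 := side_block had p2 (X := aᵀ * u2 - rᵀ)
    (Or.inr (Or.inr (by rw [det_neg, abs_mul, abs_pow, abs_neg, abs_one, one_pow, one_mul,
      det_mul, abs_mul]))) d2 hg2
  have htr : ((1 - Px) * (U1 - U2)).trace = u1.trace - u2.trace := by
    rw [← hW.trace_conj, ← hW.mul_cancel, sandwich_sub, hW.conj_one, hPx, sandwich_sub,
      ← fromBlocks_one, ← fromBlocks_toBlocks (Wᵀ * U1 * W), ← fromBlocks_toBlocks (Wᵀ * U2 * W),
      sub_eq_add_neg, fromBlocks_neg, fromBlocks_add, sub_eq_add_neg (fromBlocks _ _ _ _),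
      fromBlocks_neg, fromBlocks_add, fromBlocks_multiply]
    simp [Matrix.trace, Fintype.sum_sum_type, Finset.sum_add_distrib, Finset.sum_neg_distrib,
      sub_eq_add_neg, hu1, hu2]
  have hsum : (a⁻¹)ᵀ * ((aᵀ * u1 - rᵀ) * a) * a⁻¹ + (a⁻¹)ᵀ * (-((aᵀ * u2 - rᵀ) * a)) * a⁻¹
      = u1 - u2 := by
    have hau : IsUnit a.det := had.isUnit
    have hat : IsUnit aᵀ.det := by rwa [det_transpose]
    rw [← Matrix.add_mul, ← Matrix.mul_add, ← sub_eq_add_neg, ← Matrix.sub_mul,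
      sub_sub_sub_cancel_right, ← Matrix.mul_sub, transpose_nonsing_inv, ← Matrix.mul_assoc,
      ← Matrix.mul_assoc, nonsing_inv_mul _ hat, Matrix.one_mul, Matrix.mul_assoc,
      mul_nonsing_inv _ hau, Matrix.mul_one]
  have htr2 := congrArg Matrix.trace hsum
  rw [trace_add, trace_sub] at htr2
  rw [l1, l2, hcof, htr]
  linarith

end Vale.Agent.P231.Lin
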