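import Vale.Agent.P231.Matrix.Cof

/-!
The straddle inequality. Proof of `StraddleGoal`.
-/

namespace Vale.Agent.P231.Lin

open Matrix

variable {n l k : ℕ}

/-- Gram determinant on the range of `P` of a matrix that sends it into the kernel block. -/
lemma gram_split {W V : Matrix (Fin n) (Fin l ⊕ Fin k) ℝ} (hW : IsFrame W) (hV : IsFrame V)
    {A P : Mat n} (hP : Vᵀ * P * V = fromBlocks 1 0 0 0) {x : Matrix (Fin l) (Fin l) ℝ}
    {y : Matrix (Fin l) (Fin k) ℝ} {z : Matrix (Fin k) (Fin k) ℝ}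
    (hA : Wᵀ * A * V = fromBlocks x y 0 z) (hne : A.det ≠ 0) :
    logGram P A = Real.log |x.det| ∧ logAbsDet A = Real.log |x.det| + Real.log |z.det| := by
  have hG : Vᵀ * (Aᵀ * A) * V = fromBlocks (xᵀ * x) (xᵀ * y) (yᵀ * x) (yᵀ * y + zᵀ * z) := by
    rw [← hW.mul_cancel, ← transpose_sandwich, hA, fromBlocks_transpose, fromBlocks_multiply]
    simp
  have h1 : Vᵀ * (P * (Aᵀ * A) * P + (1 - P)) * V = fromBlocks (xᵀ * x) 0 0 1 := by
    rw [Matrix.mul_add, Matrix.add_mul, sandwich_sub, hV.conj_one, hP,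
      ← hV.mul_cancel (W := V) (U := V) (P * (Aᵀ * A)) P,
      ← hV.mul_cancel (W := V) (U := V) P (Aᵀ * A), hP, hG, fromBlocks_multiply,
      fromBlocks_multiply, sub_eq_add_neg, fromBlocks_neg, ← fromBlocks_one, fromBlocks_add,
      fromBlocks_add]
    simp
  have h2 : |A.det| = |x.det| * |z.det| := by
    rw [← hV.abs_det_conj hW, hA, det_fromBlocks_zero₂₁, abs_mul]
  refine ⟨by rw [logGram, ← hV.det_conj, h1, det_fromBlocks_zero₁₂, det_one, mul_one,
    log_det_gram], ?_⟩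
  have h3 : |x.det| * |z.det| ≠ 0 := h2 ▸ abs_ne_zero.2 hne
  rw [logAbsDet, h2, Real.log_mul (left_ne_zero_of_mul h3) (right_ne_zero_of_mul h3)]

theorem straddleGoal : StraddleGoal := by
  intro n l k Aa Ab D Z Pa Pb γ hn hAa hAb hD hZ ha1 ha2 ha3 hb1 hb2 hb3 hZb hZa hr hγ
  obtain ⟨Va, hVa, hPa⟩ := exists_frame_proj hn ha1 ha2 ha3
  obtain ⟨Vb, hVb, hPb⟩ := exists_frame_proj hn hb1 hb2 hb3
  have hua : IsUnit Aa.det := hAa.isUnit
  have hub : IsUnit Ab.det := hAb.isUnit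
  have hrD : D.rank = k := by
    rw [← hr, ← hZ, rank_mul_eq_left_of_isUnit_det _ _ hub,
      rank_mul_eq_right_of_isUnit_det _ _ (by rwa [det_transpose])]
  obtain ⟨W, d, hW, hWD, hd⟩ := exists_frame_psd (H := D) hn hD hrD
  have hDa : D * Aa * Pa = 0 := by
    have h := congrArg Matrix.transpose hZa
    have hDs : Dᵀ = D := by rw [← conjTranspose_eq_transpose_of_trivial]; exact hD.isHermitian
    rw [← hZ, transpose_mul, transpose_mul, transpose_mul, transpose_transpose, hDs, ha2,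
      transpose_zero] at h
    have hu : IsUnit Abᵀ.det := by rwa [det_transpose]
    have := congrArg (Abᵀ⁻¹ * ·) h
    simpa [← Matrix.mul_assoc, nonsing_inv_mul _ hu] using this
  have hDb : D * Ab * Pb = 0 := by
    have hu : IsUnit Aaᵀ.det := by rwa [det_transpose]
    rw [← hZ] at hZb
    have := congrArg (Aaᵀ⁻¹ * ·) hZb
    simpa [← Matrix.mul_assoc, nonsing_inv_mul _ hu] using this
  have hdn : (diagonal d).det ≠ 0 := by
    rw [det_diagonal]; exact Finset.prod_ne_zero_iff.2 fun i _ => (hd i).ne'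
  have hblock : ∀ {A P : Mat n} {V : Matrix (Fin n) (Fin l ⊕ Fin k) ℝ}, IsFrame V →
      Vᵀ * P * V = fromBlocks 1 0 0 0 → D * A * P = 0 →
      ∃ x y z, Wᵀ * A * V = fromBlocks x y 0 z := by
    intro A P V hV hP h0
    have h := hV.mul_cancel (W := W) (U := V) (D * A) P
    rw [h0, ← hW.mul_cancel (W := W) (U := V) D A, hWD, hP,
      ← fromBlocks_toBlocks (Wᵀ * A * V), fromBlocks_multiply, fromBlocks_multiply] at h
    simp only [Matrix.mul_zero, Matrix.zero_mul, Matrix.mul_one, add_zero, zero_add] at h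
    rw [← fromBlocks_zero, fromBlocks_inj] at h
    refine ⟨(Wᵀ * A * V).toBlocks₁₁, (Wᵀ * A * V).toBlocks₁₂, (Wᵀ * A * V).toBlocks₂₂,
      ((fromBlocks_toBlocks _).symm).trans ?_⟩
    have h21 := congrArg ((diagonal d)⁻¹ * ·) h.2.2.1
    simp only [← Matrix.mul_assoc, nonsing_inv_mul _ hdn.isUnit, Matrix.one_mul,
      Matrix.mul_zero] at h21
    rw [h21]
  obtain ⟨xa, ya, za, hXa⟩ := hblock hVa hPa hDa
  obtain ⟨xb, yb, zb, hXb⟩ := hblock hVb hPb hDb
  have hZf : Vaᵀ * Z * Vb = fromBlocks 0 0 0 (zaᵀ * diagonal d * zb) := by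
    rw [← hZ, ← hW.mul_cancel (W := Va) (U := Vb) (Aaᵀ * D) Ab,
      ← hW.mul_cancel (W := Va) (U := W) Aaᵀ D, ← transpose_sandwich, hXa, hXb, hWD,
      fromBlocks_transpose, fromBlocks_multiply, fromBlocks_multiply]
    simp
  obtain ⟨hga, hla⟩ := gram_split hW hVa hPa hXa hAa
  obtain ⟨hgb, hlb⟩ := gram_split hW hVb hPb hXb hAb
  have hne := block_det_ne hVa hVb hZf hr
  have hpd : (diagonal d).PosDef := PosDef.diagonal hd
  obtain ⟨hle, -⟩ := log_det_le hpd hγ
  rw [Fintype.card_fin] at hle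
  have htr : D.trace = (diagonal d).trace := by
    rw [← hW.trace_conj, hWD]; simp [Matrix.trace, Fintype.sum_sum_type]
  rw [det_mul, det_mul, det_transpose] at hne
  simp only [mul_ne_zero_iff] at hne
  rw [logCof_eq hVa hVb hPb hZf, hga, hgb, hla, hlb, htr, det_mul, det_mul, det_transpose,
    abs_mul, abs_mul, Real.log_mul (mul_ne_zero (abs_ne_zero.2 hne.1.1) (abs_ne_zero.2 hne.1.2))
      (abs_ne_zero.2 hne.2), Real.log_mul (abs_ne_zero.2 hne.1.1) (abs_ne_zero.2 hne.1.2),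
    abs_of_pos hpd.det_pos]
  have : Real.log (diagonal d).det + k - k * Real.log γ ≤ (diagonal d).trace / γ :=
    (le_div_iff₀ hγ).2 (by linarith)
  linarith

end Vale.Agent.P231.Lin
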